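import Vale.Agent.P365.T2.H213.Ae

set_option linter.all false

/-!
# P365 T2, END-EXP: almost sure simplicity of the eigenvalues (helper737)

Independent potentials with bounded densities: almost surely, an eigenvector which vanishes at a
site where some eigenvector of the same eigenvalue does not vanish is zero.
-/

namespace P365T2.H737

open MeasureTheory ProbabilityTheory Complex Filter Topology
open P365L P365L.Inf P365L.InfB
open scoped ENNReal InnerProductSpace

/-! ### deterministic part -/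

section Det

variable {W : Site → ℝ} {z : ℂ}

theorem res_dl_ne (hz : 0 < z.im) (W : Site → ℝ) (x : Site) : Res W z (dl x) ≠ 0 := by
  intro h
  have h1 := res_spec W hz (dl x) x
  rw [h, dl_apply, if_pos rfl] at h1
  simp [hop] at h1

theorem diag_im_pos (hz : 0 < z.im) (W : Site → ℝ) (x : Site) :
    0 < ((Res W z (dl x)) x).im := by
  rw [← res_im W hz x]
  have h1 : 0 < ‖Res W z (dl x)‖ := norm_pos_iff.2 (res_dl_ne hz W x)
  positivity

/-- rank one formula in infinite volume -/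
theorem res_update (hz : 0 < z.im) (W : Site → ℝ) (x : Site) (t : ℝ) :
    1 + ((t - W x : ℝ) : ℂ) * (Res W z (dl x)) x ≠ 0 ∧
      (Res (Function.update W x t) z (dl x)) x =
        (Res W z (dl x)) x * (1 + ((t - W x : ℝ) : ℂ) * (Res W z (dl x)) x)⁻¹ := by
  set g : ℂ := (Res W z (dl x)) x with hg
  have hgim : 0 < g.im := diag_im_pos hz W x
  have hne : 1 + ((t - W x : ℝ) : ℂ) * g ≠ 0 := by
    intro h
    have h1 := congrArg Complex.im h
    simp only [add_im, one_im, mul_im, ofReal_re, ofReal_im, zero_mul, add_zero, zero_add,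
      zero_im] at h1
    rcases mul_eq_zero.1 h1 with h2 | h2
    · rw [h2] at h
      simp at h
    · exact hgim.ne' h2
  refine ⟨hne, ?_⟩
  have hr : IsResolvent (Function.update W x t) z (dl x)
      ((1 + ((t - W x : ℝ) : ℂ) * g)⁻¹ • Res W z (dl x)) := by
    intro y
    have h1 := res_spec W hz (dl x) y
    by_cases hy : y = x
    · subst hy
      rw [Function.update_self, dl_apply, if_pos rfl]
      rw [dl_apply, if_pos rfl] at h1
      simp only [hop, lp.coeFn_smul, Pi.smul_apply, smul_eq_mul] at *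
      rw [← hg] at h1 ⊢
      have h2 : (1 + ((t - W y : ℝ) : ℂ) * g)⁻¹ * (1 + ((t - W y : ℝ) : ℂ) * g) = 1 :=
        inv_mul_cancel₀ hne
      push_cast at h2 ⊢
      push_cast at h1
      linear_combination (1 + ((t : ℂ) - (W y : ℂ)) * g)⁻¹ * h1 + h2
    · rw [Function.update_of_ne hy, dl_apply, if_neg hy]
      rw [dl_apply, if_neg hy] at h1
      simp only [hop, lp.coeFn_smul, Pi.smul_apply, smul_eq_mul] at *
      linear_combination (1 + ((t - W x : ℝ) : ℂ) * g)⁻¹ * h1
  rw [res_unique hz hr, lp.coeFn_smul, Pi.smul_apply, smul_eq_mul, mul_comm]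

/-- one-site average of the spectral density -/
theorem avg_res (hz : 0 < z.im) (W : Site → ℝ) (x : Site) {ν : Measure ℝ} {K : ℝ}
    (hK : ν ≤ ENNReal.ofReal K • volume) :
    ∫⁻ t, ENNReal.ofReal ((Res (Function.update W x t) z (dl x)) x).im ∂ν ≤
      ENNReal.ofReal K * ENNReal.ofReal Real.pi := by
  set g : ℂ := (Res W z (dl x)) x with hg
  have hgim : 0 < g.im := diag_im_pos hz W x
  have hg0 : g ≠ 0 := fun h => by rw [h] at hgim; simp at hgim
  set a : ℂ := (W x : ℂ) - g⁻¹ with ha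
  have haim : 0 < a.im := by
    rw [ha, Complex.sub_im, Complex.ofReal_im, zero_sub, Complex.inv_im, neg_div, neg_neg]
    exact div_pos hgim (Complex.normSq_pos.2 hg0)
  have hpt : ∀ t : ℝ, ((Res (Function.update W x t) z (dl x)) x).im =
      a.im / ((a.re - t) ^ 2 + a.im ^ 2) := by
    intro t
    obtain ⟨h1, h2⟩ := res_update hz W x t
    rw [h2, ← hg]
    rw [← hg] at h1
    have h3 : g * (1 + ((t - W x : ℝ) : ℂ) * g)⁻¹ = ((t : ℂ) - a)⁻¹ := by
      have h4 : (t : ℂ) - a = (1 + ((t - W x : ℝ) : ℂ) * g) * g⁻¹ := by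
        rw [ha, add_mul, mul_assoc, mul_inv_cancel₀ hg0]
        push_cast
        ring
      rw [h4, mul_inv, inv_inv, mul_comm]
    rw [h3, Complex.inv_im, Complex.normSq_apply]
    simp only [sub_im, ofReal_im, sub_re, ofReal_re, zero_sub, neg_neg]
    congr 1
    ring
  simp only [hpt]
  calc ∫⁻ t, ENNReal.ofReal (a.im / ((a.re - t) ^ 2 + a.im ^ 2)) ∂ν
      ≤ ∫⁻ t, ENNReal.ofReal (a.im / ((a.re - t) ^ 2 + a.im ^ 2)) ∂(ENNReal.ofReal K • volume) :=
        lintegral_mono' hK le_rfl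
    _ = ENNReal.ofReal K * ENNReal.ofReal Real.pi := by
        rw [lintegral_smul_measure, lintegral_poisson_one a.re haim, smul_eq_mul]

/-- an eigenvector seen by the spectral density -/
theorem eig_lower {E0 E η : ℝ} (hη : 0 < η) (hE : |E - E0| ≤ η) {f : L2} (hf : IsEig W E0 f)
    (hf0 : f ≠ 0) (x : Site) :
    ‖f x‖ ^ 2 / (2 * η * ‖f‖ ^ 2) ≤ ((Res W (E + η * I) (dl x)) x).im := by
  have hz := hz_im E hη
  have hzim : ((E : ℂ) + η * I).im = η := by simp
  rw [← res_im W hz x, hzim]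
  set R : L2 := Res W (E + η * I) (dl x) with hR
  have h1 := inner_res_eig (V := W) hz hf (dl x)
  rw [← hR] at h1
  have h2 : ‖⟪f, dl x⟫_ℂ‖ = ‖f x‖ := by
    rw [← inner_dl x f, ← inner_conj_symm, RCLike.norm_conj]
  have h3 : ‖f x‖ ≤ ‖(E0 : ℂ) - (E + η * I)‖ * (‖f‖ * ‖R‖) := by
    have h4 : ⟪f, dl x⟫_ℂ = ((E0 : ℂ) - (E + η * I)) * ⟪f, R⟫_ℂ := by
      rw [h1, mul_inv_cancel_left₀ (sub_ne hz E0)]
    rw [← h2, h4, norm_mul]
    exact mul_le_mul_of_nonneg_left (norm_inner_le_norm _ _) (norm_nonneg _)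
  have h5 : ‖(E0 : ℂ) - (E + η * I)‖ ^ 2 ≤ 2 * η ^ 2 := by
    rw [Complex.sq_norm, Complex.normSq_apply]
    simp only [sub_re, ofReal_re, add_re, mul_re, I_re, mul_zero, ofReal_im, I_im, mul_one,
      sub_self, add_zero, sub_im, add_im, mul_im, zero_add, zero_sub]
    have h6 : (E - E0) ^ 2 ≤ η ^ 2 := sq_le_sq' (by linarith [(abs_le.1 hE).1]) (abs_le.1 hE).2
    nlinarith
  have hfn : 0 < ‖f‖ ^ 2 := pow_pos (norm_pos_iff.2 hf0) 2
  rw [div_le_iff₀ (by positivity)]
  have h7 : ‖f x‖ ^ 2 ≤ (‖(E0 : ℂ) - (E + η * I)‖ * (‖f‖ * ‖R‖)) ^ 2 :=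
    pow_le_pow_left₀ (norm_nonneg _) h3 2
  have h8 : (‖(E0 : ℂ) - (E + η * I)‖ * (‖f‖ * ‖R‖)) ^ 2 =
      ‖(E0 : ℂ) - (E + η * I)‖ ^ 2 * (‖f‖ ^ 2 * ‖R‖ ^ 2) := by ring
  have h9 : ‖(E0 : ℂ) - (E + η * I)‖ ^ 2 * (‖f‖ ^ 2 * ‖R‖ ^ 2) ≤
      2 * η ^ 2 * (‖f‖ ^ 2 * ‖R‖ ^ 2) := mul_le_mul_of_nonneg_right h5 (by positivity)
  calc ‖f x‖ ^ 2 ≤ 2 * η ^ 2 * (‖f‖ ^ 2 * ‖R‖ ^ 2) := h7.trans (h8.le.trans h9)
    _ = η * ‖R‖ ^ 2 * (2 * η * ‖f‖ ^ 2) := by ring

/-- an eigenvector vanishing at `x` does not see the potential at `x` -/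
theorem eig_update {E0 : ℝ} {e : L2} (he : IsEig W E0 e) {x : Site} (hx : e x = 0) (t : ℝ) :
    IsEig (Function.update W x t) E0 e := by
  intro y
  have h1 := he y
  by_cases hy : y = x
  · subst hy
    rw [hx, mul_zero, mul_zero] at h1 ⊢
    exact h1
  · rw [Function.update_of_ne hy]
    exact h1

/-- the energy integral of the spectral density -/
theorem energy_diag (W : Site → ℝ) {η : ℝ} (hη : 0 < η) (y : Site) :
    ∫⁻ E : ℝ, ENNReal.ofReal ((Res W (E + η * I) (dl y)) y).im = ENNReal.ofReal Real.pi := by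
  have h1 := energy_integral W hη (dl y)
  have h2 : ‖dl y‖ = 1 := by
    unfold dl
    rw [lp.norm_single (by norm_num)]
    simp
  rw [h2, one_pow, mul_one] at h1
  rw [← h1]
  refine lintegral_congr fun E => ?_
  have h3 := res_im W (hz_im E hη) y
  have h4 : ((E : ℂ) + η * I).im = η := by simp
  rw [h4] at h3
  rw [h3]

end Det

/-! ### probability -/

section Rem

variable {Ω : Type*}

/-- the potential with the value `0` at the site `x` -/
noncomputable def rem (V : Site → Ω → ℝ) (x : Site) (ω : Ω) : Site → ℝ :=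
  Function.update (fun y => V y ω) x 0

theorem rem_update (V : Site → Ω → ℝ) (x : Site) (ω : Ω) :
    Function.update (rem V x ω) x (V x ω) = fun y => V y ω := by
  unfold rem
  rw [Function.update_idem, Function.update_eq_self]

theorem measurable_rem' {m : MeasurableSpace Ω} {V : Site → Ω → ℝ} (x : Site)
    (hV : ∀ y, y ≠ x → Measurable (V y)) : Measurable (rem V x) := by
  refine measurable_pi_lambda _ fun y => ?_
  by_cases hy : y = x
  · subst hy
    simp only [rem, Function.update_self]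
    exact measurable_const
  · simp only [rem, Function.update_of_ne hy]
    exact hV y hy

end Rem

variable {Ω : Type*} [MeasurableSpace Ω] {P : Measure Ω} [IsProbabilityMeasure P]
variable {γ : ℝ} {V : Site → Ω → ℝ}

theorem measurable_rem (hV : ∀ x, Measurable (V x)) (x : Site) : Measurable (rem V x) :=
  measurable_rem' x fun y _ => hV y

theorem indep_rem (hV : ∀ x, Measurable (V x)) (hi : iIndepFun V P) (x : Site) :
    IndepFun (V x) (rem V x) P := by
  rw [IndepFun_iff_Indep]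
  rw [iIndepFun_iff_iIndep] at hi
  have h1 := indep_iSup_of_disjoint (fun i => (hV i).comap_le) hi
    (S := {x}) (T := {x}ᶜ) disjoint_compl_right
  refine indep_of_indep_of_le_right (indep_of_indep_of_le_left h1 ?_) ?_
  · exact le_iSup₂_of_le x rfl le_rfl
  · refine Measurable.comap_le (measurable_rem' x fun y hy => ?_)
    have h2 : Measurable[MeasurableSpace.comap (V y) inferInstance] (V y) :=
      comap_measurable (V y)
    refine h2.mono ?_ le_rfl
    exact le_iSup₂_of_le (f := fun i (_ : i ∈ ({x}ᶜ : Set Site)) =>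
      MeasurableSpace.comap (V i) inferInstance) y hy le_rfl

/-- decoupling of the two densities at a fixed energy -/
theorem decouple (hγ : 0 < γ) (hs : BSetup P V γ) (x y : Site) {z : ℂ} (hz : 0 < z.im) :
    ∫⁻ ω, ENNReal.ofReal ((Res (fun y => V y ω) z (dl x)) x).im *
        ENNReal.ofReal ((Res (rem V x ω) z (dl y)) y).im ∂P ≤
      ENNReal.ofReal (1 / γ) *
        ∫⁻ ω, ENNReal.ofReal ((Res (rem V x ω) z (dl y)) y).im ∂P := by
  set A : ℝ × (Site → ℝ) → ℝ≥0∞ := fun p =>
    ENNReal.ofReal ((Res (Function.update p.2 x p.1) z (dl x)) x).im with hA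
  set B : (Site → ℝ) → ℝ≥0∞ := fun W => ENNReal.ofReal ((Res W z (dl y)) y).im with hB
  have hAm : Measurable A := by
    refine (Complex.measurable_im.comp (measurable_Res
      (fun p : ℝ × (Site → ℝ) => Function.update p.2 x p.1) (fun _ => z) (fun a => ?_)
      measurable_const (fun _ => hz) x x)).ennreal_ofReal
    by_cases ha : a = x
    · subst ha
      simp only [Function.update_self]
      exact measurable_fst
    · simp only [Function.update_of_ne ha]
      exact (measurable_pi_apply a).comp measurable_snd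
  have hBm : Measurable B :=
    (Complex.measurable_im.comp (measurable_Res (fun W : Site → ℝ => W) (fun _ => z)
      (fun a => measurable_pi_apply a) measurable_const (fun _ => hz) y y)).ennreal_ofReal
  have hABm : Measurable fun p : ℝ × (Site → ℝ) => A p * B p.2 := hAm.mul (hBm.comp measurable_snd)
  have hrm := measurable_rem hs.hV x
  have hprod : P.map (fun ω => (V x ω, rem V x ω)) = (P.map (V x)).prod (P.map (rem V x)) :=
    (indepFun_iff_map_prod_eq_prod_map_map (hs.hV x).aemeasurable hrm.aemeasurable).mp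
      (indep_rem hs.hV hs.hi x)
  have hPr : IsProbabilityMeasure (P.map (V x)) :=
    Measure.isProbabilityMeasure_map (hs.hV x).aemeasurable
  have hPr' : IsProbabilityMeasure (P.map (rem V x)) :=
    Measure.isProbabilityMeasure_map hrm.aemeasurable
  have h1 : ∫⁻ ω, ENNReal.ofReal ((Res (fun y => V y ω) z (dl x)) x).im *
      ENNReal.ofReal ((Res (rem V x ω) z (dl y)) y).im ∂P =
      ∫⁻ p, A p * B p.2 ∂((P.map (V x)).prod (P.map (rem V x))) := by
    rw [← hprod, lintegral_map hABm ((hs.hV x).prodMk hrm)]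
    refine lintegral_congr fun ω => ?_
    simp only [hA, hB]
    rw [rem_update]
  have h2 : ∫⁻ ω, ENNReal.ofReal ((Res (rem V x ω) z (dl y)) y).im ∂P =
      ∫⁻ W, B W ∂(P.map (rem V x)) := by
    rw [lintegral_map hBm hrm]
  rw [h1, h2, lintegral_prod_symm _ hABm.aemeasurable,
    ← lintegral_const_mul _ hBm]
  refine lintegral_mono fun W => ?_
  simp only
  have hAW : Measurable fun t : ℝ => A (t, W) := hAm.comp (measurable_id.prodMk measurable_const)
  rw [lintegral_mul_const _ hAW]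
  refine mul_le_mul_left ?_ _
  refine (avg_res hz W x (hs.hK x)).trans (le_of_eq ?_)
  rw [← ENNReal.ofReal_mul (by positivity)]
  congr 1
  have := Real.pi_pos.ne'
  field_simp

/-- the overlap of the two densities -/
noncomputable def ov (V : Site → Ω → ℝ) (x y : Site) (η : ℝ) (ω : Ω) : ℝ≥0∞ :=
  ∫⁻ E : ℝ, ENNReal.ofReal η * (ENNReal.ofReal ((Res (fun y => V y ω) (E + η * I) (dl x)) x).im *
    ENNReal.ofReal ((Res (rem V x ω) (E + η * I) (dl y)) y).im)

theorem measurable_ov_aux (hV : ∀ x, Measurable (V x)) (x y : Site) {η : ℝ} (hη : 0 < η) :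
    (Measurable fun p : Ω × ℝ => ENNReal.ofReal η *
      (ENNReal.ofReal ((Res (fun y => V y p.1) (p.2 + η * I) (dl x)) x).im *
        ENNReal.ofReal ((Res (rem V x p.1) (p.2 + η * I) (dl y)) y).im)) ∧
    Measurable fun p : Ω × ℝ => ENNReal.ofReal ((Res (rem V x p.1) (p.2 + η * I) (dl y)) y).im := by
  have hz : Measurable fun p : Ω × ℝ => (p.2 : ℂ) + η * I :=
    (Complex.measurable_ofReal.comp measurable_snd).add_const _
  have h1 := measurable_Res (fun p : Ω × ℝ => fun y => V y p.1) (fun p => (p.2 : ℂ) + η * I)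
    (fun a => (hV a).comp measurable_fst) hz (fun p => hz_im p.2 hη) x x
  have h2 := measurable_Res (fun p : Ω × ℝ => rem V x p.1) (fun p => (p.2 : ℂ) + η * I)
    (fun a => (measurable_pi_apply a).comp ((measurable_rem hV x).comp measurable_fst)) hz
    (fun p => hz_im p.2 hη) y y
  exact ⟨(((Complex.measurable_im.comp h1).ennreal_ofReal).mul
    ((Complex.measurable_im.comp h2).ennreal_ofReal)).const_mul _,
    (Complex.measurable_im.comp h2).ennreal_ofReal⟩

theorem measurable_ov (hV : ∀ x, Measurable (V x)) (x y : Site) {η : ℝ} (hη : 0 < η) :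
    Measurable (ov V x y η) :=
  (measurable_ov_aux hV x y hη).1.lintegral_prod_right'

/-- **the mean overlap is `O(η)`** -/
theorem mean_ov (hγ : 0 < γ) (hs : BSetup P V γ) (x y : Site) {η : ℝ} (hη : 0 < η) :
    ∫⁻ ω, ov V x y η ω ∂P ≤ ENNReal.ofReal η * (ENNReal.ofReal (1 / γ) * ENNReal.ofReal Real.pi) := by
  obtain ⟨hm1, hm2⟩ := measurable_ov_aux hs.hV x y hη
  unfold ov
  rw [lintegral_lintegral_swap hm1.aemeasurable]
  have hB : Measurable fun E : ℝ => ∫⁻ ω, ENNReal.ofReal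
      ((Res (rem V x ω) (E + η * I) (dl y)) y).im ∂P := hm2.lintegral_prod_left'
  calc ∫⁻ E : ℝ, ∫⁻ ω, ENNReal.ofReal η *
        (ENNReal.ofReal ((Res (fun y => V y ω) (E + η * I) (dl x)) x).im *
          ENNReal.ofReal ((Res (rem V x ω) (E + η * I) (dl y)) y).im) ∂P
      ≤ ∫⁻ E : ℝ, ENNReal.ofReal η * (ENNReal.ofReal (1 / γ) *
          ∫⁻ ω, ENNReal.ofReal ((Res (rem V x ω) (E + η * I) (dl y)) y).im ∂P) := by
        refine lintegral_mono fun E => ?_
        simp only
        rw [lintegral_const_mul' _ _ ENNReal.ofReal_ne_top]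
        exact mul_le_mul_right (decouple hγ hs x y (hz_im E hη)) _
    _ = ENNReal.ofReal η * (ENNReal.ofReal (1 / γ) * ENNReal.ofReal Real.pi) := by
        rw [lintegral_const_mul _ (hB.const_mul _), lintegral_const_mul _ hB]
        congr 2
        rw [← lintegral_lintegral_swap hm2.aemeasurable]
        simp only [energy_diag _ hη]
        rw [lintegral_const, measure_univ, mul_one]

/-- almost surely the overlaps do not stay away from zero -/
theorem ae_ov (hγ : 0 < γ) (hs : BSetup P V γ) (x y : Site) (η : ℕ → ℝ) (hη : ∀ k, 0 < η k)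
    (hη0 : Tendsto η atTop (𝓝 0)) :
    ∀ᵐ ω ∂P, liminf (fun k => ov V x y (η k) ω) atTop = 0 := by
  have hm : ∀ k, Measurable (ov V x y (η k)) := fun k => measurable_ov hs.hV x y (hη k)
  have h1 : ∫⁻ ω, liminf (fun k => ov V x y (η k) ω) atTop ∂P = 0 := by
    refine le_antisymm ?_ bot_le
    refine (lintegral_liminf_le hm).trans ?_
    have h2 : Tendsto (fun k => ENNReal.ofReal (η k) *
        (ENNReal.ofReal (1 / γ) * ENNReal.ofReal Real.pi)) atTop (𝓝 0) := by
      have h3 := ENNReal.tendsto_ofReal hη0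
      rw [ENNReal.ofReal_zero] at h3
      have h4 := ENNReal.Tendsto.mul_const h3
        (b := ENNReal.ofReal (1 / γ) * ENNReal.ofReal Real.pi)
        (Or.inr (ENNReal.mul_ne_top ENNReal.ofReal_ne_top ENNReal.ofReal_ne_top))
      rwa [zero_mul] at h4
    rw [← h2.liminf_eq]
    exact liminf_le_liminf (Eventually.of_forall fun k => mean_ov hγ hs x y (hη k))
  exact (lintegral_eq_zero_iff (Measurable.liminf hm)).1 h1

/-- two eigenvectors give an overlap -/
theorem ov_lower (x y : Site) {η : ℝ} (hη : 0 < η) {ω : Ω} {E0 : ℝ} {e f : L2}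
    (he : IsEig (fun y => V y ω) E0 e) (hf : IsEig (fun y => V y ω) E0 f) (hx : e x = 0)
    (he0 : e ≠ 0) (hf0 : f ≠ 0) :
    ENNReal.ofReal (‖f x‖ ^ 2 / ‖f‖ ^ 2 * (‖e y‖ ^ 2 / ‖e‖ ^ 2) / 2) ≤ ov V x y η ω := by
  have he' : IsEig (rem V x ω) E0 e := eig_update he hx 0
  set c : ℝ := ‖f x‖ ^ 2 / (2 * η * ‖f‖ ^ 2) with hc
  set d : ℝ := ‖e y‖ ^ 2 / (2 * η * ‖e‖ ^ 2) with hd
  have hc0 : 0 ≤ c := by positivity
  have hd0 : 0 ≤ d := by positivity
  have hfn : 0 < ‖f‖ := norm_pos_iff.2 hf0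
  have hen : 0 < ‖e‖ := norm_pos_iff.2 he0
  calc ENNReal.ofReal (‖f x‖ ^ 2 / ‖f‖ ^ 2 * (‖e y‖ ^ 2 / ‖e‖ ^ 2) / 2)
      = ∫⁻ E in Set.Icc (E0 - η) (E0 + η), ENNReal.ofReal (η * (c * d)) := by
        rw [setLIntegral_const, Real.volume_Icc, ← ENNReal.ofReal_mul (by positivity)]
        congr 1
        rw [hc, hd]
        field_simp
        ring
    _ ≤ ∫⁻ E in Set.Icc (E0 - η) (E0 + η), ENNReal.ofReal η *
          (ENNReal.ofReal ((Res (fun y => V y ω) (E + η * I) (dl x)) x).im *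
            ENNReal.ofReal ((Res (rem V x ω) (E + η * I) (dl y)) y).im) := by
        refine setLIntegral_mono' measurableSet_Icc fun E hE => ?_
        have hE' : |E - E0| ≤ η := abs_le.2 ⟨by linarith [hE.1], by linarith [hE.2]⟩
        rw [ENNReal.ofReal_mul hη.le, ENNReal.ofReal_mul hc0]
        gcongr
        · exact eig_lower hη hE' hf hf0 x
        · exact eig_lower hη hE' he' he0 y
    _ ≤ ov V x y η ω := setLIntegral_le_lintegral _ _

/-- **almost sure simplicity** -/
theorem simple_ae (hγ : 0 < γ) (hs : BSetup P V γ) :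
    ∀ᵐ ω ∂P, ∀ (E : ℝ) (x : Site) (e f : L2), IsEig (fun y => V y ω) E e →
      IsEig (fun y => V y ω) E f → e x = 0 → f x ≠ 0 → e = 0 := by
  set η : ℕ → ℝ := fun k => 1 / ((k : ℝ) + 1) with hηdef
  have hη : ∀ k, 0 < η k := fun k => by simp only [hηdef]; positivity
  have hη0 : Tendsto η atTop (𝓝 0) := tendsto_one_div_add_atTop_nhds_zero_nat
  have h1 : ∀ᵐ ω ∂P, ∀ x y : Site, liminf (fun k => ov V x y (η k) ω) atTop = 0 := by
    rw [ae_all_iff]
    intro x
    rw [ae_all_iff]
    intro y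
    exact ae_ov hγ hs x y η hη hη0
  filter_upwards [h1] with ω hω E x e f he hf hx hfx
  by_contra he0
  have hy : ∃ y, e y ≠ 0 := by
    by_contra h
    push Not at h
    apply he0
    ext y
    simp [h y]
  obtain ⟨y, hy⟩ := hy
  have hf0 : f ≠ 0 := by
    intro h
    apply hfx
    rw [h]
    simp
  have hfn : 0 < ‖f‖ := norm_pos_iff.2 hf0
  have hen : 0 < ‖e‖ := norm_pos_iff.2 he0
  have hfx' : 0 < ‖f x‖ := norm_pos_iff.2 hfx
  have hey' : 0 < ‖e y‖ := norm_pos_iff.2 hy
  have h2 : ENNReal.ofReal (‖f x‖ ^ 2 / ‖f‖ ^ 2 * (‖e y‖ ^ 2 / ‖e‖ ^ 2) / 2) ≤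
      liminf (fun k => ov V x y (η k) ω) atTop :=
    le_liminf_of_le (by isBoundedDefault)
      (Eventually.of_forall fun k => ov_lower x y (hη k) he hf hx he0 hf0)
  rw [hω x y, nonpos_iff_eq_zero, ENNReal.ofReal_eq_zero] at h2
  have h3 : 0 < ‖f x‖ ^ 2 / ‖f‖ ^ 2 * (‖e y‖ ^ 2 / ‖e‖ ^ 2) / 2 := by positivity
  linarith

/-- **all eigenspaces are at most one-dimensional**, almost surely -/
theorem simple_span (hγ : 0 < γ) (hs : BSetup P V γ) :
    ∀ᵐ ω ∂P, ∀ (E : ℝ) (e f : L2), IsEig (fun y => V y ω) E e →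
      IsEig (fun y => V y ω) E f → f ≠ 0 → ∃ c : ℂ, e = c • f := by
  filter_upwards [simple_ae hγ hs] with ω hω E e f he hf hf0
  have hx : ∃ x, f x ≠ 0 := by
    by_contra h
    push Not at h
    apply hf0
    ext y
    simp [h y]
  obtain ⟨x, hx⟩ := hx
  refine ⟨e x / f x, ?_⟩
  have h1 : IsEig (fun y => V y ω) E (e - (e x / f x) • f) :=
    (NE (fun y => V y ω) E).sub_mem he ((NE (fun y => V y ω) E).smul_mem _ hf)
  have h2 := hω E x _ f h1 hf (by
    rw [lp.coeFn_sub, Pi.sub_apply, lp.coeFn_smul, Pi.smul_apply, smul_eq_mul,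
      div_mul_cancel₀ _ hx, sub_self]) hx
  exact sub_eq_zero.1 h2

end P365T2.H737
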